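import Vale.Agent.P039.Sk.Final
import Vale.Agent.P039.Sp.LemD

/-! Row L7: 3-edge-cuts of webs, the two sides, gluing, induction. -/

namespace Vale.Agent.P039.H481

open Vale.Agent.P039.Sk

variable {B W V : Type}

/-- The number of edges of `X` which join the two parts `s = true`, `s = false`. -/
def cutN [Fintype B] (X : Web B W) (s : B ⊕ W → Bool) : ℕ :=
  (Finset.univ.filter fun p : Fin 3 × B => s (Sum.inl p.2) ≠ s (Sum.inr (X.e p.1 p.2))).card

/-- `X` is 3-edge-connected. -/
def TE [Fintype B] (X : Web B W) : Prop :=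
  ∀ s : B ⊕ W → Bool, (∃ x, s x = true) → (∃ y, s y = false) → 3 ≤ cutN X s

/-- Every 3-edge-cut of `X` is trivial (one of the sides is a single vertex). -/
def Prime [Fintype B] (X : Web B W) : Prop :=
  ∀ s : B ⊕ W → Bool, (∃ x y, x ≠ y ∧ s x = true ∧ s y = true) →
    (∃ x y, x ≠ y ∧ s x = false ∧ s y = false) → 4 ≤ cutN X s

/-- Some Hamiltonian cycle of `X` does not use the edge of colour `i` at `b`: `m b` is the colour
of the omitted edge at `b`. -/
def HamAvoid (X : Web B W) (i : Fin 3) (b : B) : Prop :=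
  ∃ m : B → Fin 3, m b = i ∧ Function.Bijective (fun b => X.e (m b) b) ∧
    ∀ x y, Relation.EqvGen
      (fun x y : B ⊕ W => ∃ b j, j ≠ m b ∧ x = Sum.inl b ∧ y = Sum.inr (X.e j b)) x y

/-- A clean 3-edge-cut. -/
structure Cut3 (X : Web B W) (s : B ⊕ W → Bool) (bb : Fin 3 → B) : Prop where
  hb : ∀ i, s (Sum.inl (bb i)) = true
  hw : ∀ i, s (Sum.inr (X.e i (bb i))) = false
  uniq : ∀ i b, s (Sum.inl b) = true → s (Sum.inr (X.e i b)) = false → b = bb i
  back : ∀ i b, s (Sum.inr (X.e i b)) = true → s (Sum.inl b) = true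

theorem eqvGen_of_bool {A : Type*} (r : A → A → Prop)
    (h : ∀ φ : A → Bool, (∀ x y, r x y → φ x = φ y) → ∀ x y, φ x = φ y) (x y : A) :
    Relation.EqvGen r x y := by
  classical
  have h1 := h (fun z => decide (Relation.EqvGen r x z)) (by
    intro a b hab
    have : Relation.EqvGen r x a ↔ Relation.EqvGen r x b :=
      ⟨fun h => h.trans _ _ _ (Relation.EqvGen.rel _ _ hab),
        fun h => h.trans _ _ _ (Relation.EqvGen.rel _ _ hab).symm⟩
    simp only [this]) x y
  have h2 : decide (Relation.EqvGen r x x) = true := decide_eq_true (Relation.EqvGen.refl _)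
  rw [h2] at h1
  exact of_decide_eq_true h1.symm

theorem bool_of_eqvGen {A : Type*} {r : A → A → Prop} (φ : A → Bool)
    (hφ : ∀ x y, r x y → φ x = φ y) {x y : A} (h : Relation.EqvGen r x y) : φ x = φ y := by
  induction h with
  | rel x y h => exact hφ _ _ h
  | refl x => rfl
  | symm x y _ ih => exact ih.symm
  | trans x y z _ _ ih1 ih2 => exact ih1.trans ih2

/-- a 3-edge-connected web is connected -/
theorem TE.wconn [Fintype B] {X : Web B W} (h : TE X) : X.WConn (fun _ : B => true) true := by
  classical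
  intro w w'
  set r : W → W → Prop := fun w w' => ∃ b i i', (fun _ : B => true) b = true ∧ X.e i b = w ∧
    X.e i' b = w' with hr
  by_contra hn
  have h1 := h (Sum.elim (fun b => decide (Relation.EqvGen r w (X.e 0 b)))
    (fun x => decide (Relation.EqvGen r w x)))
    ⟨Sum.inr w, decide_eq_true (Relation.EqvGen.refl _)⟩ ⟨Sum.inr w', decide_eq_false hn⟩
  have h2 : cutN X (Sum.elim (fun b => decide (Relation.EqvGen r w (X.e 0 b)))
    (fun x => decide (Relation.EqvGen r w x))) = 0 := by
    unfold cutN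
    rw [Finset.card_eq_zero, Finset.filter_eq_empty_iff]
    rintro ⟨i, b⟩ _ hne
    apply hne
    simp only [Sum.elim_inl, Sum.elim_inr]
    have hh : Relation.EqvGen r (X.e 0 b) (X.e i b) :=
      Relation.EqvGen.rel _ _ ⟨b, 0, i, rfl, rfl, rfl⟩
    have : Relation.EqvGen r w (X.e 0 b) ↔ Relation.EqvGen r w (X.e i b) :=
      ⟨fun h => h.trans _ _ _ hh, fun h => h.trans _ _ _ hh.symm⟩
    simp only [this]
  omega

theorem cut_dichotomy [Fintype B] [Fintype W] (X : Web B W) (s : B ⊕ W → Bool)
    (h : cutN X s = 3) :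
    (∃ bb, Cut3 X s bb) ∨ (∃ bb, Cut3 X (fun x => !(s x)) bb) := by
  classical
  set a : Fin 3 → ℕ := fun i => (Finset.univ.filter fun b : B =>
    s (Sum.inl b) = true ∧ s (Sum.inr (X.e i b)) = false).card with ha
  set c : Fin 3 → ℕ := fun i => (Finset.univ.filter fun b : B =>
    s (Sum.inl b) = false ∧ s (Sum.inr (X.e i b)) = true).card with hc
  set d : Fin 3 → ℕ := fun i => (Finset.univ.filter fun b : B =>
    s (Sum.inl b) = true ∧ s (Sum.inr (X.e i b)) = true).card with hd
  set nB : ℕ := (Finset.univ.filter fun b : B => s (Sum.inl b) = true).card with hnB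
  set nW : ℕ := (Finset.univ.filter fun w : W => s (Sum.inr w) = true).card with hnW
  have h1 : ∀ i, nB = a i + d i := by
    intro i
    rw [hnB, ha, hd]
    rw [← Finset.card_union_of_disjoint]
    · congr 1
      ext b
      simp only [Finset.mem_filter, Finset.mem_univ, true_and, Finset.mem_union]
      constructor
      · intro hb
        rcases Bool.eq_false_or_eq_true (s (Sum.inr (X.e i b))) with h | h
        · exact Or.inr ⟨hb, h⟩
        · exact Or.inl ⟨hb, h⟩
      · rintro (h | h) <;> exact h.1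
    · rw [Finset.disjoint_left]
      intro b hb hb'
      simp only [Finset.mem_filter, Finset.mem_univ, true_and] at hb hb'
      rw [hb.2] at hb'
      exact absurd hb'.2 (by decide)
  have h2 : ∀ i, nW = c i + d i := by
    intro i
    have e1 : nW = (Finset.univ.filter fun b : B => s (Sum.inr (X.e i b)) = true).card := by
      rw [hnW]
      symm
      apply Finset.card_bij (fun b _ => X.e i b)
      · intro b hb
        simpa using hb
      · intro b _ b' _ hbb
        exact (X.e i).injective hbb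
      · intro w hw
        refine ⟨(X.e i).symm w, ?_, by simp⟩
        simpa using hw
    rw [e1, hc, hd]
    rw [← Finset.card_union_of_disjoint]
    · congr 1
      ext b
      simp only [Finset.mem_filter, Finset.mem_univ, true_and, Finset.mem_union]
      constructor
      · intro hb
        rcases Bool.eq_false_or_eq_true (s (Sum.inl b)) with h | h
        · exact Or.inr ⟨h, hb⟩
        · exact Or.inl ⟨h, hb⟩
      · rintro (h | h) <;> exact h.2
    · rw [Finset.disjoint_left]
      intro b hb hb'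
      simp only [Finset.mem_filter, Finset.mem_univ, true_and] at hb hb'
      rw [hb.1] at hb'
      exact absurd hb'.1 (by decide)
  have h3 : (a 0 + c 0) + (a 1 + c 1) + (a 2 + c 2) = 3 := by
    have e1 : cutN X s = ∑ i : Fin 3, (Finset.univ.filter fun b : B =>
        s (Sum.inl b) ≠ s (Sum.inr (X.e i b))).card := by
      unfold cutN
      rw [Finset.card_filter, Fintype.sum_prod_type]
      apply Finset.sum_congr rfl
      intro i _
      rw [Finset.card_filter]
    have e2 : ∀ i : Fin 3, (Finset.univ.filter fun b : B =>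
        s (Sum.inl b) ≠ s (Sum.inr (X.e i b))).card = a i + c i := by
      intro i
      rw [ha, hc]
      rw [← Finset.card_union_of_disjoint]
      · congr 1
        ext b
        simp only [Finset.mem_filter, Finset.mem_univ, true_and, Finset.mem_union]
        rcases Bool.eq_false_or_eq_true (s (Sum.inl b)) with h | h <;>
          rcases Bool.eq_false_or_eq_true (s (Sum.inr (X.e i b))) with h' | h' <;>
          simp [h, h']
      · rw [Finset.disjoint_left]
        intro b hb hb'
        simp only [Finset.mem_filter, Finset.mem_univ, true_and] at hb hb'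
        rw [hb.1] at hb'
        exact absurd hb'.1 (by decide)
    rw [Fin.sum_univ_three, e2, e2, e2] at e1
    omega
  have h10 := h1 0
  have h11 := h1 1
  have h12 := h1 2
  have h20 := h2 0
  have h21 := h2 1
  have h22 := h2 2
  have key : (∀ i, a i = 1 ∧ c i = 0) ∨ (∀ i, a i = 0 ∧ c i = 1) := by
    by_cases hd' : nB = nW + 1
    · left
      intro i
      fin_cases i
      · show a 0 = 1 ∧ c 0 = 0
        omega
      · show a 1 = 1 ∧ c 1 = 0
        omega
      · show a 2 = 1 ∧ c 2 = 0
        omega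
    · right
      intro i
      fin_cases i
      · show a 0 = 0 ∧ c 0 = 1
        omega
      · show a 1 = 0 ∧ c 1 = 1
        omega
      · show a 2 = 0 ∧ c 2 = 1
        omega
  rcases key with key | key
  · left
    have hex : ∀ i, ∃ b, (Finset.univ.filter fun b : B =>
        s (Sum.inl b) = true ∧ s (Sum.inr (X.e i b)) = false) = {b} := fun i =>
      Finset.card_eq_one.1 (key i).1
    choose bb hbb using hex
    have hmem : ∀ i b, (s (Sum.inl b) = true ∧ s (Sum.inr (X.e i b)) = false) ↔ b = bb i := by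
      intro i b
      have := congrArg (fun A => b ∈ A) (hbb i)
      simp only [Finset.mem_filter, Finset.mem_univ, true_and, Finset.mem_singleton,
        eq_iff_iff] at this
      exact this
    refine ⟨bb, ⟨fun i => ((hmem i (bb i)).2 rfl).1, fun i => ((hmem i (bb i)).2 rfl).2,
      fun i b h1 h2 => (hmem i b).1 ⟨h1, h2⟩, ?_⟩⟩
    intro i b hw
    by_contra hn
    have hf : s (Sum.inl b) = false := by simpa using hn
    have h0 := Finset.card_eq_zero.1 (key i).2
    have : b ∈ (Finset.univ.filter fun b : B =>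
      s (Sum.inl b) = false ∧ s (Sum.inr (X.e i b)) = true) := by simp [hf, hw]
    rw [h0] at this
    exact absurd this (Finset.notMem_empty _)
  · right
    have hex : ∀ i, ∃ b, (Finset.univ.filter fun b : B =>
        s (Sum.inl b) = false ∧ s (Sum.inr (X.e i b)) = true) = {b} := fun i =>
      Finset.card_eq_one.1 (key i).2
    choose bb hbb using hex
    have hmem : ∀ i b, (s (Sum.inl b) = false ∧ s (Sum.inr (X.e i b)) = true) ↔ b = bb i := by
      intro i b
      have := congrArg (fun A => b ∈ A) (hbb i)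
      simp only [Finset.mem_filter, Finset.mem_univ, true_and, Finset.mem_singleton,
        eq_iff_iff] at this
      exact this
    refine ⟨bb, ⟨?_, ?_, ?_, ?_⟩⟩
    · intro i
      show (!(s (Sum.inl (bb i)))) = true
      rw [((hmem i (bb i)).2 rfl).1]; rfl
    · intro i
      show (!(s (Sum.inr (X.e i (bb i))))) = false
      rw [((hmem i (bb i)).2 rfl).2]; rfl
    · intro i b h1 h2
      apply (hmem i b).1
      constructor
      · simpa using h1
      · simpa using h2
    · intro i b hw
      show (!(s (Sum.inl b))) = true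
      have hw' : s (Sum.inr (X.e i b)) = false := by simpa using hw
      by_contra hn
      have hf : s (Sum.inl b) = true := by simpa using hn
      have h0 := Finset.card_eq_zero.1 (key i).1
      have : b ∈ (Finset.univ.filter fun b : B =>
        s (Sum.inl b) = true ∧ s (Sum.inr (X.e i b)) = false) := by simp [hf, hw']
      rw [h0] at this
      exact absurd this (Finset.notMem_empty _)

section Sides

variable {X : Web B W} {s : B ⊕ W → Bool} {bb : Fin 3 → B}

/-! ### the first side: the complement is contracted to a white vertex -/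

/-- black vertices of the first side -/
abbrev B1 (s : B ⊕ W → Bool) : Type := {b : B // s (Sum.inl b) = true}
/-- white vertices of the first side -/
abbrev W1 (s : B ⊕ W → Bool) : Type := Option {w : W // s (Sum.inr w) = true}
/-- black vertices of the second side -/
abbrev B2 (s : B ⊕ W → Bool) : Type := Option {b : B // s (Sum.inl b) = false}
/-- white vertices of the second side -/
abbrev W2 (s : B ⊕ W → Bool) : Type := {w : W // s (Sum.inr w) = false}

def f1 (X : Web B W) (s : B ⊕ W → Bool) (i : Fin 3) (b : B1 s) : W1 s :=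
  if h : s (Sum.inr (X.e i b.1)) = true then some ⟨X.e i b.1, h⟩ else none

theorem f1_some {i : Fin 3} {b : B1 s} (h : s (Sum.inr (X.e i b.1)) = true) :
    f1 X s i b = some ⟨X.e i b.1, h⟩ := dif_pos h

theorem f1_none {i : Fin 3} {b : B1 s} (h : s (Sum.inr (X.e i b.1)) = false) :
    f1 X s i b = none := dif_neg (by rw [h]; decide)

theorem f1_bij (C : Cut3 X s bb) (i : Fin 3) : Function.Bijective (f1 X s i) := by
  constructor
  · intro b b' h
    rcases Bool.eq_false_or_eq_true (s (Sum.inr (X.e i b.1))) with h1 | h1 <;>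
      rcases Bool.eq_false_or_eq_true (s (Sum.inr (X.e i b'.1))) with h2 | h2
    · rw [f1_some h1, f1_some h2] at h
      have h3 := congrArg Subtype.val (Option.some.inj h)
      exact Subtype.ext ((X.e i).injective h3)
    · rw [f1_some h1, f1_none h2] at h
      exact absurd h (by simp)
    · rw [f1_none h1, f1_some h2] at h
      exact absurd h (by simp)
    · exact Subtype.ext ((C.uniq i _ b.2 h1).trans (C.uniq i _ b'.2 h2).symm)
  · rintro (_ | w)
    · exact ⟨⟨bb i, C.hb i⟩, f1_none (C.hw i)⟩
    · have hw : s (Sum.inr (X.e i ((X.e i).symm w.1))) = true := by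
        rw [Equiv.apply_symm_apply]; exact w.2
      refine ⟨⟨(X.e i).symm w.1, C.back i _ hw⟩, ?_⟩
      rw [f1_some (b := ⟨(X.e i).symm w.1, C.back i _ hw⟩) hw]
      congr 1
      exact Subtype.ext (Equiv.apply_symm_apply _ _)

/-- the first side of a clean cut -/
noncomputable def X1 (C : Cut3 X s bb) : Web (B1 s) (W1 s) :=
  ⟨fun i => Equiv.ofBijective (f1 X s i) (f1_bij C i)⟩

theorem X1_e (C : Cut3 X s bb) (i : Fin 3) (b : B1 s) : (X1 C).e i b = f1 X s i b := rfl

def f2 (C : Cut3 X s bb) (i : Fin 3) : B2 s → W2 s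
  | none => ⟨X.e i (bb i), C.hw i⟩
  | some b => ⟨X.e i b.1, by
      by_contra hn
      have h1 := C.back i b.1 (by simpa using hn)
      rw [b.2] at h1
      exact absurd h1 (by decide)⟩

theorem f2_bij (C : Cut3 X s bb) (i : Fin 3) : Function.Bijective (f2 C i) := by
  constructor
  · rintro (_ | b) (_ | b') h
    · rfl
    · have h1 := (X.e i).injective (congrArg Subtype.val h)
      have h2 := b'.2
      rw [← h1, C.hb i] at h2
      exact absurd h2 (by decide)
    · have h1 := (X.e i).injective (congrArg Subtype.val h)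
      have h2 := b.2
      rw [h1, C.hb i] at h2
      exact absurd h2 (by decide)
    · have h1 := (X.e i).injective (congrArg Subtype.val h)
      exact congrArg some (Subtype.ext h1)
  · intro w
    rcases Bool.eq_false_or_eq_true (s (Sum.inl ((X.e i).symm w.1))) with h | h
    · refine ⟨none, Subtype.ext ?_⟩
      have h1 := C.uniq i ((X.e i).symm w.1) h (by rw [Equiv.apply_symm_apply]; exact w.2)
      show X.e i (bb i) = w.1
      rw [← h1, Equiv.apply_symm_apply]
    · exact ⟨some ⟨(X.e i).symm w.1, h⟩, Subtype.ext (Equiv.apply_symm_apply _ _)⟩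

/-- the second side of a clean cut -/
noncomputable def X2 (C : Cut3 X s bb) : Web (B2 s) (W2 s) :=
  ⟨fun i => Equiv.ofBijective (f2 C i) (f2_bij C i)⟩

theorem X2_none (C : Cut3 X s bb) (i : Fin 3) :
    (X2 C).e i none = ⟨X.e i (bb i), C.hw i⟩ := rfl

theorem X2_some (C : Cut3 X s bb) (i : Fin 3) (b : {b : B // s (Sum.inl b) = false}) :
    ((X2 C).e i (some b)).1 = X.e i b.1 := rfl

/-! ### 3-edge-connectedness of the sides -/

/-- the projection to the first side -/
def pi1 (s : B ⊕ W → Bool) : B ⊕ W → B1 s ⊕ W1 s :=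
  Sum.elim (fun b => if h : s (Sum.inl b) = true then Sum.inl ⟨b, h⟩ else Sum.inr none)
    (fun w => if h : s (Sum.inr w) = true then Sum.inr (some ⟨w, h⟩) else Sum.inr none)

theorem pi1_inl {b : B} (h : s (Sum.inl b) = true) : pi1 s (Sum.inl b) = Sum.inl ⟨b, h⟩ :=
  dif_pos h
theorem pi1_inl' {b : B} (h : s (Sum.inl b) = false) : pi1 s (Sum.inl b) = Sum.inr none :=
  dif_neg (by rw [h]; decide)
theorem pi1_inr {w : W} (h : s (Sum.inr w) = true) :
    pi1 s (Sum.inr w) = Sum.inr (some ⟨w, h⟩) := dif_pos h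
theorem pi1_inr' {w : W} (h : s (Sum.inr w) = false) : pi1 s (Sum.inr w) = Sum.inr none :=
  dif_neg (by rw [h]; decide)

theorem pi1_e {b : B} (h : s (Sum.inl b) = true) (C : Cut3 X s bb) (i : Fin 3) :
    pi1 s (Sum.inr (X.e i b)) = Sum.inr ((X1 C).e i ⟨b, h⟩) := by
  rw [X1_e]
  rcases Bool.eq_false_or_eq_true (s (Sum.inr (X.e i b))) with h1 | h1
  · rw [pi1_inr h1, f1_some (b := ⟨b, h⟩) h1]
  · rw [pi1_inr' h1, f1_none (b := ⟨b, h⟩) h1]

theorem pi1_surj (C : Cut3 X s bb) : Function.Surjective (pi1 s) := by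
  rintro (⟨b, hb⟩ | (_ | ⟨w, hw⟩))
  · exact ⟨Sum.inl b, pi1_inl hb⟩
  · exact ⟨Sum.inr (X.e 0 (bb 0)), pi1_inr' (C.hw 0)⟩
  · exact ⟨Sum.inr w, pi1_inr hw⟩

/-- the projection to the second side -/
def pi2 (s : B ⊕ W → Bool) : B ⊕ W → B2 s ⊕ W2 s :=
  Sum.elim (fun b => if h : s (Sum.inl b) = false then Sum.inl (some ⟨b, h⟩) else Sum.inl none)
    (fun w => if h : s (Sum.inr w) = false then Sum.inr ⟨w, h⟩ else Sum.inl none)

theorem pi2_inl {b : B} (h : s (Sum.inl b) = false) : pi2 s (Sum.inl b) = Sum.inl (some ⟨b, h⟩) :=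
  dif_pos h
theorem pi2_inl' {b : B} (h : s (Sum.inl b) = true) : pi2 s (Sum.inl b) = Sum.inl none :=
  dif_neg (by rw [h]; decide)
theorem pi2_inr {w : W} (h : s (Sum.inr w) = false) :
    pi2 s (Sum.inr w) = Sum.inr ⟨w, h⟩ := dif_pos h
theorem pi2_inr' {w : W} (h : s (Sum.inr w) = true) : pi2 s (Sum.inr w) = Sum.inl none :=
  dif_neg (by rw [h]; decide)

theorem Cut3.out (C : Cut3 X s bb) {b : B} (h : s (Sum.inl b) = false) (i : Fin 3) :
    s (Sum.inr (X.e i b)) = false := by
  by_contra hn
  have h1 := C.back i b (by simpa using hn)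
  rw [h] at h1
  exact absurd h1 (by decide)

theorem pi2_e {b : B} (h : s (Sum.inl b) = false) (C : Cut3 X s bb) (i : Fin 3) :
    pi2 s (Sum.inr (X.e i b)) = Sum.inr ((X2 C).e i (some ⟨b, h⟩)) := by
  rw [pi2_inr (C.out h i)]
  rfl

theorem pi2_surj (C : Cut3 X s bb) : Function.Surjective (pi2 s) := by
  rintro ((_ | ⟨b, hb⟩) | ⟨w, hw⟩)
  · exact ⟨Sum.inl (bb 0), pi2_inl' (C.hb 0)⟩
  · exact ⟨Sum.inl b, pi2_inl hb⟩
  · exact ⟨Sum.inr w, pi2_inr hw⟩

theorem TE.side1 [Fintype B] [Fintype (B1 s)] (h : TE X) (C : Cut3 X s bb) : TE (X1 C) := by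
  classical
  intro t ht ht'
  have h1 : 3 ≤ cutN X (fun x => t (pi1 s x)) := by
    apply h
    · obtain ⟨x, hx⟩ := ht
      obtain ⟨y, rfl⟩ := pi1_surj C x
      exact ⟨y, hx⟩
    · obtain ⟨x, hx⟩ := ht'
      obtain ⟨y, rfl⟩ := pi1_surj C x
      exact ⟨y, hx⟩
  refine h1.trans ?_
  unfold cutN
  have hS : ∀ p : Fin 3 × B, t (pi1 s (Sum.inl p.2)) ≠ t (pi1 s (Sum.inr (X.e p.1 p.2))) →
      s (Sum.inl p.2) = true := by
    intro p hp
    by_contra hn
    have hn' : s (Sum.inl p.2) = false := by simpa using hn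
    apply hp
    rw [pi1_inl' hn', pi1_inr' (C.out hn' _)]
  refine Finset.card_le_card_of_injOn
    (fun p => if h : s (Sum.inl p.2) = true then (p.1, ⟨p.2, h⟩) else (p.1, ⟨bb 0, C.hb 0⟩)) ?_ ?_
  · intro p hp
    simp only [Finset.coe_filter, Finset.mem_univ, true_and, Set.mem_setOf_eq] at hp ⊢
    have h2 := hS p hp
    rw [dif_pos h2]
    rw [pi1_inl h2, pi1_e h2 C] at hp
    exact hp
  · intro p hp q hq hpq
    simp only [Finset.coe_filter, Finset.mem_univ, true_and, Set.mem_setOf_eq] at hp hq
    have h2 := hS p hp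
    have h3 := hS q hq
    simp only [dif_pos h2, dif_pos h3, Prod.mk.injEq, Subtype.mk.injEq] at hpq
    exact Prod.ext hpq.1 hpq.2

theorem TE.side2 [Fintype B] [Fintype (B2 s)] (h : TE X) (C : Cut3 X s bb) : TE (X2 C) := by
  classical
  intro t ht ht'
  have h1 : 3 ≤ cutN X (fun x => t (pi2 s x)) := by
    apply h
    · obtain ⟨x, hx⟩ := ht
      obtain ⟨y, rfl⟩ := pi2_surj C x
      exact ⟨y, hx⟩
    · obtain ⟨x, hx⟩ := ht'
      obtain ⟨y, rfl⟩ := pi2_surj C x
      exact ⟨y, hx⟩
  refine h1.trans ?_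
  unfold cutN
  have hS : ∀ p : Fin 3 × B, t (pi2 s (Sum.inl p.2)) ≠ t (pi2 s (Sum.inr (X.e p.1 p.2))) →
      s (Sum.inl p.2) = true → p.2 = bb p.1 := by
    intro p hp hs
    apply C.uniq _ _ hs
    by_contra hn
    apply hp
    rw [pi2_inl' hs, pi2_inr' (by simpa using hn)]
  refine Finset.card_le_card_of_injOn
    (fun p => if h : s (Sum.inl p.2) = false then (p.1, some ⟨p.2, h⟩) else (p.1, none)) ?_ ?_
  · intro p hp
    simp only [Finset.coe_filter, Finset.mem_univ, true_and, Set.mem_setOf_eq] at hp ⊢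
    by_cases h2 : s (Sum.inl p.2) = false
    · rw [dif_pos h2]
      rw [pi2_inl h2, pi2_e h2 C] at hp
      exact hp
    · rw [dif_neg h2]
      have h3 : s (Sum.inl p.2) = true := by simpa using h2
      have h4 := hS p hp h3
      rw [pi2_inl' h3, h4, pi2_inr (C.hw _)] at hp
      exact hp
  · intro p hp q hq hpq
    simp only [Finset.coe_filter, Finset.mem_univ, true_and, Set.mem_setOf_eq] at hp hq
    by_cases h2 : s (Sum.inl p.2) = false <;> by_cases h3 : s (Sum.inl q.2) = false
    · simp only [dif_pos h2, dif_pos h3, Prod.mk.injEq, Option.some.injEq,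
        Subtype.mk.injEq] at hpq
      exact Prod.ext hpq.1 hpq.2
    · simp only [dif_pos h2, dif_neg h3, Prod.mk.injEq] at hpq
      exact absurd hpq.2 (by simp)
    · simp only [dif_neg h2, dif_pos h3, Prod.mk.injEq] at hpq
      exact absurd hpq.2 (by simp)
    · simp only [dif_neg h2, dif_neg h3, Prod.mk.injEq] at hpq
      have h4 := hS p hp (by simpa using h2)
      have h5 := hS q hq (by simpa using h3)
      exact Prod.ext hpq.1 (by rw [h4, h5, hpq.1])

/-! ### faces of the sides -/

theorem face_cut [Fintype B] (L : Lab X V) (C : Cut3 X s bb) (j : Fin 3) :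
    L.c j (bb (j + 1)) = L.c j (bb (j + 2)) := by
  classical
  have hrho : ∀ b, X.e (j + 1) (X.rho j b) = X.e (j + 2) b := fun b => by simp [Web.rho]
  have hc : ∀ b, L.c j (X.rho j b) = L.c j b := fun b => L.step j b _ (hrho b)
  set v := L.c j (bb (j + 2)) with hv
  -- number of black vertices of the face whose white neighbour of colour `j + 1` lies inside
  have h1 : (∑ b, if L.c j b = v ∧ s (Sum.inr (X.e (j + 2) b)) = true then 1 else 0 : ℕ) =
      ∑ b, if L.c j b = v ∧ s (Sum.inr (X.e (j + 1) b)) = true then 1 else 0 := by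
    rw [← Equiv.sum_comp (X.rho j)
      (fun b => if L.c j b = v ∧ s (Sum.inr (X.e (j + 1) b)) = true then 1 else 0)]
    apply Finset.sum_congr rfl
    intro b _
    rw [hc, hrho]
  have h2 : ∀ i : Fin 3, (∑ b, if L.c j b = v ∧ s (Sum.inr (X.e i b)) = true then 1 else 0 : ℕ) +
      (if L.c j (bb i) = v then 1 else 0) =
      ∑ b, if L.c j b = v ∧ s (Sum.inl b) = true then 1 else 0 := by
    intro i
    have e1 : (if L.c j (bb i) = v then 1 else 0 : ℕ) =
        ∑ b, if b = bb i then (if L.c j (bb i) = v then 1 else 0) else 0 := by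
      rw [Finset.sum_ite_eq' Finset.univ (bb i)]
      simp
    rw [e1, ← Finset.sum_add_distrib]
    apply Finset.sum_congr rfl
    intro b _
    by_cases hb : b = bb i
    · subst hb
      rw [if_pos rfl, C.hw i, C.hb i]
      by_cases hf : L.c j (bb i) = v <;> simp [hf]
    · rw [if_neg hb, add_zero]
      have : s (Sum.inr (X.e i b)) = true ↔ s (Sum.inl b) = true := by
        constructor
        · exact C.back i b
        · intro hs
          by_contra hn
          exact hb (C.uniq i b hs (by simpa using hn))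
      simp only [this]
  have h3 := h2 (j + 1)
  have h4 := h2 (j + 2)
  rw [h1, if_pos hv.symm] at h4
  by_contra hne
  rw [if_neg hne] at h3
  omega

/-- faces of the first side -/
abbrev V1 (L : Lab X V) (s : B ⊕ W → Bool) : Type :=
  {v : V // ∃ j b, s (Sum.inl b) = true ∧ L.c j b = v}
/-- faces of the second side -/
abbrev V2 (L : Lab X V) (s : B ⊕ W → Bool) (bb : Fin 3 → B) : Type :=
  {v : V // (∃ j b, s (Sum.inl b) = false ∧ L.c j b = v) ∨ ∃ j, L.c j (bb (j + 1)) = v}

theorem f1_eq_cases {i i' : Fin 3} {b b' : B1 s} (C : Cut3 X s bb)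
    (h : f1 X s i b' = f1 X s i' b) :
    X.e i b'.1 = X.e i' b.1 ∨ (b'.1 = bb i ∧ b.1 = bb i') := by
  rcases Bool.eq_false_or_eq_true (s (Sum.inr (X.e i b'.1))) with h1 | h1 <;>
    rcases Bool.eq_false_or_eq_true (s (Sum.inr (X.e i' b.1))) with h2 | h2
  · rw [f1_some h1, f1_some h2] at h
    exact Or.inl (congrArg Subtype.val (Option.some.inj h))
  · rw [f1_some h1, f1_none h2] at h
    exact absurd h (by simp)
  · rw [f1_none h1, f1_some h2] at h
    exact absurd h (by simp)
  · exact Or.inr ⟨C.uniq i _ b'.2 h1, C.uniq i' _ b.2 h2⟩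

theorem f1_eq_of {i i' : Fin 3} {b b' : B1 s} (h : X.e i b'.1 = X.e i' b.1) :
    f1 X s i b' = f1 X s i' b := by
  unfold f1
  simp only [h]

theorem lab_inv (L : Lab X V) {j : Fin 3} {α : Type} (F : B → α)
    (hF : ∀ x y, X.e (j + 1) y = X.e (j + 2) x → F x = F y) {b b' : B}
    (h : L.c j b = L.c j b') : F b = F b' := by
  have h1 := L.exact j b b' h
  clear h
  induction h1 with
  | rel x y h => exact hF x y h
  | refl x => rfl
  | symm x y _ ih => exact ih.symm
  | trans x y z _ _ ih1 ih2 => exact ih1.trans ih2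

/-- the labelling of the first side -/
noncomputable def L1 [Fintype B] (L : Lab X V) (C : Cut3 X s bb) : Lab (X1 C) (V1 L s) where
  c j b := ⟨L.c j b.1, j, b.1, b.2, rfl⟩
  step := by
    intro j b b' h
    apply Subtype.ext
    show L.c j b'.1 = L.c j b.1
    rcases f1_eq_cases C h with h1 | ⟨h1, h2⟩
    · exact L.step j _ _ h1
    · rw [h1, h2]
      exact face_cut L C j
  exact := by
    classical
    intro j b b' h
    have h0 : L.c j b.1 = L.c j b'.1 := congrArg Subtype.val h
    set r : B1 s → B1 s → Prop := fun x y => (X1 C).e (j + 1) y = (X1 C).e (j + 2) x with hr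
    set b0 : B1 s := ⟨bb (j + 2), C.hb _⟩ with hb0
    have hb1 : r b0 ⟨bb (j + 1), C.hb _⟩ := by
      show f1 X s (j + 1) ⟨bb (j + 1), C.hb _⟩ = f1 X s (j + 2) ⟨bb (j + 2), C.hb _⟩
      rw [f1_none (C.hw _), f1_none (C.hw _)]
    let F : B → Quot r := fun x => if h : s (Sum.inl x) = true then Quot.mk r ⟨x, h⟩ else
      Quot.mk r b0
    have hF1 : ∀ (x : B) (h : s (Sum.inl x) = true), F x = Quot.mk r ⟨x, h⟩ := fun x h => dif_pos h
    have hF2 : ∀ (x : B) (h : s (Sum.inl x) = false), F x = Quot.mk r b0 := fun x h =>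
      dif_neg (by rw [h]; decide)
    have hF : ∀ x y, X.e (j + 1) y = X.e (j + 2) x → F x = F y := by
      intro x y hxy
      rcases Bool.eq_false_or_eq_true (s (Sum.inl x)) with hx | hx <;>
        rcases Bool.eq_false_or_eq_true (s (Sum.inl y)) with hy | hy
      · rw [hF1 x hx, hF1 y hy]
        apply Quot.sound
        exact f1_eq_of (b := ⟨x, hx⟩) (b' := ⟨y, hy⟩) hxy
      · rw [hF1 x hx, hF2 y hy]
        have h1 := C.out hy (j + 1)
        rw [hxy] at h1
        have h2 := C.uniq _ _ hx h1
        subst h2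
        rfl
      · rw [hF2 x hx, hF1 y hy]
        have h1 := C.out hx (j + 2)
        rw [← hxy] at h1
        have h2 := C.uniq _ _ hy h1
        subst h2
        exact Quot.sound hb1
      · rw [hF2 x hx, hF2 y hy]
    have h3 := lab_inv L F hF h0
    rw [hF1 _ b.2, hF1 _ b'.2] at h3
    exact Quot.eqvGen_exact h3
  cls := by
    intro j j' b b' h
    exact L.cls j j' b.1 b'.1 (congrArg Subtype.val h)
  surj := by
    rintro ⟨v, j, b, hb, rfl⟩
    exact ⟨j, ⟨b, hb⟩, rfl⟩

/-- the labelling of the second side -/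
noncomputable def L2 [Fintype B] (L : Lab X V) (C : Cut3 X s bb) : Lab (X2 C) (V2 L s bb) where
  c j b := match b with
    | none => ⟨L.c j (bb (j + 1)), Or.inr ⟨j, rfl⟩⟩
    | some b => ⟨L.c j b.1, Or.inl ⟨j, b.1, b.2, rfl⟩⟩
  step := by
    intro j b b' h
    have h0 : ((X2 C).e (j + 1) b').1 = ((X2 C).e (j + 2) b).1 := congrArg Subtype.val h
    apply Subtype.ext
    rcases b' with _ | b' <;> rcases b with _ | b
    · rfl
    · exact L.step j b.1 (bb (j + 1)) h0
    · exact (L.step j (bb (j + 2)) b'.1 h0).trans (face_cut L C j).symm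
    · exact L.step j b.1 b'.1 h0
  exact := by
    classical
    intro j b b' h
    set r : B2 s → B2 s → Prop := fun x y => (X2 C).e (j + 1) y = (X2 C).e (j + 2) x with hr
    let F : B → Quot r := fun x => if h : s (Sum.inl x) = false then Quot.mk r (some ⟨x, h⟩) else
      Quot.mk r none
    have hF1 : ∀ (x : B) (h : s (Sum.inl x) = false), F x = Quot.mk r (some ⟨x, h⟩) :=
      fun x h => dif_pos h
    have hF2 : ∀ (x : B) (h : s (Sum.inl x) = true), F x = Quot.mk r none := fun x h =>
      dif_neg (by rw [h]; decide)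
    have hF : ∀ x y, X.e (j + 1) y = X.e (j + 2) x → F x = F y := by
      intro x y hxy
      rcases Bool.eq_false_or_eq_true (s (Sum.inl x)) with hx | hx <;>
        rcases Bool.eq_false_or_eq_true (s (Sum.inl y)) with hy | hy
      · rw [hF2 x hx, hF2 y hy]
      · rw [hF2 x hx, hF1 y hy]
        have h1 := C.out hy (j + 1)
        rw [hxy] at h1
        have h2 := C.uniq _ _ hx h1
        subst h2
        apply Quot.sound
        exact Subtype.ext hxy
      · rw [hF1 x hx, hF2 y hy]
        have h1 := C.out hx (j + 2)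
        rw [← hxy] at h1
        have h2 := C.uniq _ _ hy h1
        subst h2
        apply Quot.sound
        exact Subtype.ext hxy
      · rw [hF1 x hx, hF1 y hy]
        apply Quot.sound
        exact Subtype.ext hxy
    apply Quot.eqvGen_exact
    rcases b with _ | b <;> rcases b' with _ | b'
    · rfl
    · have h3 := lab_inv L F hF (congrArg Subtype.val h : L.c j (bb (j + 1)) = L.c j b'.1)
      rw [hF2 _ (C.hb _), hF1 _ b'.2] at h3
      exact h3
    · have h3 := lab_inv L F hF (congrArg Subtype.val h : L.c j b.1 = L.c j (bb (j + 1)))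
      rw [hF2 _ (C.hb _), hF1 _ b.2] at h3
      exact h3
    · have h3 := lab_inv L F hF (congrArg Subtype.val h : L.c j b.1 = L.c j b'.1)
      rw [hF1 _ b.2, hF1 _ b'.2] at h3
      exact h3
  cls := by
    intro j j' b b' h
    rcases b with _ | b <;> rcases b' with _ | b'
    · exact L.cls j j' _ _ (congrArg Subtype.val h : L.c j (bb (j + 1)) = L.c j' (bb (j' + 1)))
    · exact L.cls j j' _ _ (congrArg Subtype.val h : L.c j (bb (j + 1)) = L.c j' b'.1)
    · exact L.cls j j' _ _ (congrArg Subtype.val h : L.c j b.1 = L.c j' (bb (j' + 1)))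
    · exact L.cls j j' _ _ (congrArg Subtype.val h : L.c j b.1 = L.c j' b'.1)
  surj := by
    rintro ⟨v, ⟨j, b, hb, rfl⟩ | ⟨j, rfl⟩⟩
    · exact ⟨j, some ⟨b, hb⟩, rfl⟩
    · exact ⟨j, none, rfl⟩

theorem card_faces [Fintype B] [Fintype V] (L : Lab X V) [Fintype (V1 L s)]
    [Fintype (V2 L s bb)] (C : Cut3 X s bb) :
    Fintype.card V + 3 ≤ Fintype.card (V1 L s) + Fintype.card (V2 L s bb) := by
  classical
  set P1 : V → Prop := fun v => ∃ j b, s (Sum.inl b) = true ∧ L.c j b = v with hP1
  set P2 : V → Prop := fun v => (∃ j b, s (Sum.inl b) = false ∧ L.c j b = v) ∨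
    ∃ j, L.c j (bb (j + 1)) = v with hP2
  have e1 : Fintype.card (V1 L s) = (Finset.univ.filter P1).card := by
    rw [Fintype.card_subtype]
  have e2 : Fintype.card (V2 L s bb) = (Finset.univ.filter P2).card := by
    rw [Fintype.card_subtype]
  have hU : Finset.univ.filter P1 ∪ Finset.univ.filter P2 = Finset.univ := by
    ext v
    simp only [Finset.mem_union, Finset.mem_filter, Finset.mem_univ, true_and, iff_true]
    obtain ⟨j, b, rfl⟩ := L.surj v
    rcases Bool.eq_false_or_eq_true (s (Sum.inl b)) with h | h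
    · exact Or.inl ⟨j, b, h, rfl⟩
    · exact Or.inr (Or.inl ⟨j, b, h, rfl⟩)
  have hI : 3 ≤ (Finset.univ.filter P1 ∩ Finset.univ.filter P2).card := by
    have h1 : (Finset.univ.image fun j : Fin 3 => L.c j (bb (j + 1))).card = 3 := by
      rw [Finset.card_image_of_injective]
      · rfl
      · intro j j' h
        exact L.cls _ _ _ _ h
    refine h1.symm.le.trans (Finset.card_le_card ?_)
    intro v hv
    simp only [Finset.mem_image, Finset.mem_univ, true_and] at hv
    obtain ⟨j, rfl⟩ := hv
    simp only [Finset.mem_inter, Finset.mem_filter, Finset.mem_univ, true_and]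
    exact ⟨⟨j, _, C.hb _, rfl⟩, Or.inr ⟨j, rfl⟩⟩
  have h3 := Finset.card_union_add_card_inter (Finset.univ.filter P1) (Finset.univ.filter P2)
  rw [hU, Finset.card_univ] at h3
  rw [e1, e2]
  omega

theorem card_blacks [Fintype B] [Fintype (B1 s)] [Fintype (B2 s)] :
    Fintype.card (B1 s) + Fintype.card (B2 s) = Fintype.card B + 1 := by
  classical
  have h1 : Fintype.card (B2 s) = Fintype.card {b : B // s (Sum.inl b) = false} + 1 := by
    rw [← Nat.card_eq_fintype_card, ← Nat.card_eq_fintype_card]
    exact Finite.card_option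
  have h2 : Fintype.card (B1 s) + Fintype.card {b : B // s (Sum.inl b) = false} =
      Fintype.card B := by
    rw [Fintype.card_subtype, Fintype.card_subtype]
    have h3 : (Finset.univ.filter fun b : B => s (Sum.inl b) = false) =
        Finset.univ.filter fun b : B => ¬ s (Sum.inl b) = true := by
      ext b
      simp
    rw [h3, Finset.card_filter_add_card_filter_not, Finset.card_univ]
  omega

/-- both sides of a clean cut of a spherical 3-edge-connected web are spherical -/
theorem sides_spherical [Fintype B] [Fintype W] [Fintype V] (L : Lab X V)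
    [Fintype (B1 s)] [Fintype (B2 s)] [Fintype (W1 s)] [Fintype (W2 s)] [Fintype (V1 L s)]
    [Fintype (V2 L s bb)] (C : Cut3 X s bb) (hV : Fintype.card V = Fintype.card B + 2)
    (hT : TE X) :
    Fintype.card (V1 L s) = Fintype.card (B1 s) + 2 ∧
      Fintype.card (V2 L s bb) = Fintype.card (B2 s) + 2 := by
  have h1 := euler_le (V := V1 L s) (X1 C) (L1 L C).c (L1 L C).step (L1 L C).surj
    (hT.side1 C).wconn
  have h2 := euler_le (V := V2 L s bb) (X2 C) (L2 L C).c (L2 L C).step (L2 L C).surj
    (hT.side2 C).wconn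
  have h3 := card_faces L C
  have h4 : Fintype.card (B1 s) + Fintype.card (B2 s) = Fintype.card B + 1 := card_blacks
  omega

/-! ### gluing -/

theorem fin3_third : ∀ i j k l : Fin 3, k ≠ j → l ≠ j → k ≠ l → i ≠ j → i ≠ k → i = l := by
  decide

theorem glue [Fintype B] [Fintype W] [DecidableEq W] (C : Cut3 X s bb)
    {m1 : B1 s → Fin 3} {m2 : B2 s → Fin 3} {j : Fin 3}
    (hj1 : m1 ⟨bb j, C.hb j⟩ = j) (hj2 : m2 none = j)
    (hm1 : Function.Bijective fun b => (X1 C).e (m1 b) b)
    (hm2 : Function.Bijective fun b => (X2 C).e (m2 b) b)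
    (hc1 : ∀ x y, Relation.EqvGen (fun x y : B1 s ⊕ W1 s => ∃ b j, j ≠ m1 b ∧ x = Sum.inl b ∧
      y = Sum.inr ((X1 C).e j b)) x y)
    (hc2 : ∀ x y, Relation.EqvGen (fun x y : B2 s ⊕ W2 s => ∃ b j, j ≠ m2 b ∧ x = Sum.inl b ∧
      y = Sum.inr ((X2 C).e j b)) x y) :
    ∃ m : B → Fin 3, (∀ (b : B) (h : s (Sum.inl b) = true), m b = m1 ⟨b, h⟩) ∧
      (∀ (b : B) (h : s (Sum.inl b) = false), m b = m2 (some ⟨b, h⟩)) ∧
      Function.Bijective (fun b => X.e (m b) b) ∧
      ∀ x y, Relation.EqvGen
        (fun x y : B ⊕ W => ∃ b j, j ≠ m b ∧ x = Sum.inl b ∧ y = Sum.inr (X.e j b)) x y := by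
  classical
  set m : B → Fin 3 := fun b => if h : s (Sum.inl b) = true then m1 ⟨b, h⟩ else
    m2 (some ⟨b, by simpa using h⟩) with hm
  have e1 : ∀ (b : B) (h : s (Sum.inl b) = true), m b = m1 ⟨b, h⟩ := fun b h => dif_pos h
  have e2 : ∀ (b : B) (h : s (Sum.inl b) = false), m b = m2 (some ⟨b, h⟩) := fun b h =>
    dif_neg (by rw [h]; decide)
  -- the only black vertex of the first side which is matched to the outside is `bb j`
  have honly : ∀ (b : B) (h : s (Sum.inl b) = true), s (Sum.inr (X.e (m b) b)) = false →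
      b = bb j ∧ m b = j := by
    intro b h hw
    have h1 : (X1 C).e (m1 ⟨b, h⟩) ⟨b, h⟩ = (X1 C).e (m1 ⟨bb j, C.hb j⟩) ⟨bb j, C.hb j⟩ := by
      rw [X1_e, X1_e, hj1, f1_none (b := ⟨bb j, C.hb j⟩) (C.hw j), ← e1 b h,
        f1_none (b := ⟨b, h⟩) hw]
    have h2 := hm1.injective h1
    have h3 : b = bb j := congrArg Subtype.val h2
    refine ⟨h3, ?_⟩
    rw [e1 b h, h2, hj1]
  have hmj : m (bb j) = j := by rw [e1 _ (C.hb j), hj1]
  have hused : ∀ i, i ≠ j → i ≠ m (bb i) := by
    intro i hi hi'
    have h1 := honly (bb i) (C.hb i) (by rw [← hi']; exact C.hw i)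
    exact hi (hi'.trans h1.2)
  have hbij : Function.Bijective (fun b => X.e (m b) b) := by
    rw [Fintype.bijective_iff_injective_and_card]
    refine ⟨?_, Fintype.card_congr (X.e 0)⟩
    have mixed : ∀ b b', s (Sum.inl b) = true → s (Sum.inl b') = false →
        X.e (m b) b = X.e (m b') b' → False := by
      intro b b' h h' hbb
      have hw : s (Sum.inr (X.e (m b) b)) = false := by rw [hbb]; exact C.out h' _
      obtain ⟨h1, h2⟩ := honly b h hw
      have h3 : (X2 C).e (m2 none) none = (X2 C).e (m2 (some ⟨b', h'⟩)) (some ⟨b', h'⟩) := by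
        apply Subtype.ext
        rw [hj2, X2_some, ← e2 b' h', ← hbb, h2, h1]
        rfl
      exact absurd (hm2.injective h3) (by simp)
    intro b b' hbb
    have hbb' : X.e (m b) b = X.e (m b') b' := hbb
    rcases Bool.eq_false_or_eq_true (s (Sum.inl b)) with h | h <;>
      rcases Bool.eq_false_or_eq_true (s (Sum.inl b')) with h' | h'
    · rcases Bool.eq_false_or_eq_true (s (Sum.inr (X.e (m b) b))) with h1 | h1
      · have h2 : (X1 C).e (m1 ⟨b, h⟩) ⟨b, h⟩ = (X1 C).e (m1 ⟨b', h'⟩) ⟨b', h'⟩ := by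
          rw [X1_e, X1_e, ← e1 b h, ← e1 b' h']
          exact f1_eq_of (b := ⟨b', h'⟩) (b' := ⟨b, h⟩) hbb'
        exact congrArg Subtype.val (hm1.injective h2)
      · have h2 := honly b h h1
        rw [hbb'] at h1
        have h3 := honly b' h' h1
        rw [h2.1, h3.1]
    · exact (mixed b b' h h' hbb').elim
    · exact (mixed b' b h' h hbb'.symm).elim
    · have h2 : (X2 C).e (m2 (some ⟨b, h⟩)) (some ⟨b, h⟩) =
          (X2 C).e (m2 (some ⟨b', h'⟩)) (some ⟨b', h'⟩) := by
        apply Subtype.ext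
        rw [X2_some, X2_some, ← e2 b h, ← e2 b' h']
        exact hbb'
      have h3 := Option.some.inj (hm2.injective h2)
      exact congrArg Subtype.val h3
  refine ⟨m, e1, e2, hbij, ?_⟩
  apply eqvGen_of_bool
  intro φ hφ
  have hφ' : ∀ b i, i ≠ m b → φ (Sum.inl b) = φ (Sum.inr (X.e i b)) := fun b i hi =>
    hφ _ _ ⟨b, i, hi, rfl, rfl⟩
  -- parity
  have hpar : ∀ k l : Fin 3, k ≠ j → l ≠ j → k ≠ l →
      φ (Sum.inr (X.e k (bb k))) = φ (Sum.inr (X.e l (bb l))) := by
    intro k l hk hl hkl
    by_contra hne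
    set p := φ (Sum.inr (X.e k (bb k))) with hp
    let K : B ⊕ W → ZMod 2 := fun x => if s x = false ∧ φ x = p then 1 else 0
    have h2 : (2 : ZMod 2) = 0 := by decide
    have hS : (∑ i : Fin 3, ∑ b, (if i = m b then 0 else
        (K (Sum.inr (X.e i b)) + K (Sum.inl b)))) = 0 := by
      have h3 : ∀ i b, (if i = m b then 0 else (K (Sum.inr (X.e i b)) + K (Sum.inl b))) =
          (K (Sum.inr (X.e i b)) + K (Sum.inl b)) -
            (if i = m b then (K (Sum.inr (X.e i b)) + K (Sum.inl b)) else 0) := by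
        intro i b
        split_ifs <;> ring
      simp only [h3]
      rw [Finset.sum_congr rfl (fun i _ => Finset.sum_sub_distrib _ _), Finset.sum_sub_distrib]
      have h4 : (∑ i : Fin 3, ∑ b, if i = m b then (K (Sum.inr (X.e i b)) + K (Sum.inl b))
          else 0) = ∑ b, (K (Sum.inr (X.e (m b) b)) + K (Sum.inl b)) := by
        rw [Finset.sum_comm]
        apply Finset.sum_congr rfl
        intro b _
        rw [Finset.sum_ite_eq' Finset.univ (m b)]
        simp
      rw [h4]
      simp only [Finset.sum_add_distrib]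
      rw [hbij.sum_comp (fun w => K (Sum.inr w)), Fin.sum_univ_three, Fin.sum_univ_three,
        Equiv.sum_comp (X.e 0) (fun w => K (Sum.inr w)),
        Equiv.sum_comp (X.e 1) (fun w => K (Sum.inr w)),
        Equiv.sum_comp (X.e 2) (fun w => K (Sum.inr w))]
      linear_combination ((∑ w, K (Sum.inr w)) + ∑ b, K (Sum.inl b)) * h2
    have hT : (∑ i : Fin 3, ∑ b, (if i = m b then 0 else
        (K (Sum.inr (X.e i b)) + K (Sum.inl b)))) = 1 := by
      have hterm : ∀ i b, ¬ (i = k ∧ b = bb k) → (if i = m b then 0 else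
          (K (Sum.inr (X.e i b)) + K (Sum.inl b))) = 0 := by
        intro i b hib
        split_ifs with him
        · rfl
        · have h5 := hφ' b i him
          rcases Bool.eq_false_or_eq_true (s (Sum.inl b)) with h | h
          · rcases Bool.eq_false_or_eq_true (s (Sum.inr (X.e i b))) with h' | h'
            · simp only [K, h, h']
              simp
            · have h6 := C.uniq i b h h'
              subst h6
              have hij : i ≠ j := by
                rintro rfl
                exact him hmj.symm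
              have hik : i ≠ k := by
                rintro rfl
                exact hib ⟨rfl, rfl⟩
              have hil : i = l := fin3_third i j k l hk hl hkl hij hik
              subst hil
              simp only [K, h]
              rw [if_neg (by
                rintro ⟨_, h7⟩
                exact hne h7.symm)]
              simp
          · have h' := C.out h i
            simp only [K, h, h', h5]
            rcases (em (φ (Sum.inr (X.e i b)) = p)) with h7 | h7
            · simp only [h7, and_self, if_true]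
              exact h2
            · simp [h7]
      rw [Finset.sum_eq_single k, Finset.sum_eq_single (bb k)]
      · rw [if_neg (hused k hk)]
        simp only [K, C.hw k, C.hb k, ← hp]
        simp
      · intro b _ hb
        exact hterm k b (fun h => hb h.2)
      · intro h; exact absurd (Finset.mem_univ _) h
      · intro i _ hi
        exact Finset.sum_eq_zero fun b _ => hterm i b (fun h => hi h.1)
      · intro h; exact absurd (Finset.mem_univ _) h
    rw [hS] at hT
    exact absurd hT (by decide)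
  obtain ⟨k, hk⟩ : ∃ k : Fin 3, k ≠ j := ⟨j + 1, fne1 j⟩
  set p := φ (Sum.inr (X.e k (bb k))) with hp
  have hall : ∀ i, i ≠ j → φ (Sum.inr (X.e i (bb i))) = p := by
    intro i hi
    by_cases hik : i = k
    · rw [hik]
    · exact hpar i k hi hk hik
  have hA : ∀ x, s x = false → φ x = p := by
    let ψ : B2 s ⊕ W2 s → Bool := Sum.elim
      (fun b => match b with
        | none => p
        | some b => φ (Sum.inl b.1)) (fun w => φ (Sum.inr w.1))
    have hψ : ∀ x y, (∃ b j, j ≠ m2 b ∧ x = Sum.inl b ∧ y = Sum.inr ((X2 C).e j b)) →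
        ψ x = ψ y := by
      rintro _ _ ⟨(_ | b), i, hi, rfl, rfl⟩
      · rw [hj2] at hi
        exact (hall i hi).symm
      · rw [← e2 b.1 b.2] at hi
        exact hφ' b.1 i hi
    intro x hx
    have h1 : ∀ y, ψ (Sum.inl none) = ψ y := fun y => bool_of_eqvGen ψ hψ (hc2 _ _)
    rcases x with b | w
    · exact (h1 (Sum.inl (some ⟨b, hx⟩))).symm
    · exact (h1 (Sum.inr ⟨w, hx⟩)).symm
  have hB : ∀ x, s x = true → φ x = p := by
    let ψ : B1 s ⊕ W1 s → Bool := Sum.elim (fun b => φ (Sum.inl b.1))
      (fun w => match w with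
        | none => p
        | some w => φ (Sum.inr w.1))
    have hψ : ∀ x y, (∃ b j, j ≠ m1 b ∧ x = Sum.inl b ∧ y = Sum.inr ((X1 C).e j b)) →
        ψ x = ψ y := by
      rintro _ _ ⟨b, i, hi, rfl, rfl⟩
      rw [← e1 b.1 b.2] at hi
      have h0 := hφ' b.1 i hi
      rw [X1_e]
      rcases Bool.eq_false_or_eq_true (s (Sum.inr (X.e i b.1))) with h1 | h1
      · rw [f1_some h1]
        exact h0
      · rw [f1_none h1]
        have h2 := C.uniq i b.1 b.2 h1
        show φ (Sum.inl b.1) = p
        rw [h0]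
        rw [h2]
        apply hall
        rintro rfl
        apply hi
        rw [h2, hmj]
    intro x hx
    have h1 : ∀ y, ψ (Sum.inr none) = ψ y := fun y => bool_of_eqvGen ψ hψ (hc1 _ _)
    rcases x with b | w
    · exact (h1 (Sum.inl ⟨b, hx⟩)).symm
    · exact (h1 (Sum.inr (some ⟨w, hx⟩))).symm
  have hC : ∀ x, φ x = p := by
    intro x
    rcases Bool.eq_false_or_eq_true (s x) with h | h
    · exact hB x h
    · exact hA x h
  intro x y
  rw [hC x, hC y]

end Sides

/-! ### induction -/

theorem hamAvoid_one [Fintype B] [Fintype W] (X : Web B W) (h : Fintype.card B ≤ 1) (i : Fin 3)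
    (b : B) : HamAvoid X i b := by
  have hB : Subsingleton B := Fintype.card_le_one_iff_subsingleton.1 h
  have hW : Subsingleton W := (X.e 0).symm.injective.subsingleton
  refine ⟨fun _ => i, rfl, ⟨fun _ _ _ => Subsingleton.elim _ _, fun w => ⟨b, Subsingleton.elim _ _⟩⟩,
    ?_⟩
  apply eqvGen_of_bool
  intro φ hφ
  have h1 : φ (Sum.inl b) = φ (Sum.inr (X.e (i + 1) b)) := hφ _ _ ⟨b, i + 1, fne1 i, rfl, rfl⟩
  have h2 : ∀ x, φ x = φ (Sum.inl b) := by
    rintro (b' | w)
    · rw [Subsingleton.elim b' b]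
    · rw [h1, Subsingleton.elim w (X.e (i + 1) b)]
  intro x y
  rw [h2 x, h2 y]

/-- the induction step: a clean cut with at least two vertices on both sides -/
theorem step_of_cut [Fintype B] [Fintype W] [Fintype V] {X : Web B W} {s : B ⊕ W → Bool}
    {bb : Fin 3 → B} (L : Lab X V) (C : Cut3 X s bb)
    (hV : Fintype.card V = Fintype.card B + 2) (hT : TE X)
    (ht : ∃ x y, x ≠ y ∧ s x = true ∧ s y = true)
    (hf : ∃ x y, x ≠ y ∧ s x = false ∧ s y = false)
    (ih : ∀ (B' W' V' : Type) [Fintype B'] [Fintype W'] [Fintype V'] (X' : Web B' W')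
      (_ : Lab X' V'), Fintype.card B' < Fintype.card B →
      Fintype.card V' = Fintype.card B' + 2 → TE X' → ∀ i b, HamAvoid X' i b)
    (i : Fin 3) (b : B) : HamAvoid X i b := by
  classical
  letI : Fintype (B1 s) := Fintype.ofFinite _
  letI : Fintype (B2 s) := Fintype.ofFinite _
  letI : Fintype (W1 s) := Fintype.ofFinite _
  letI : Fintype (W2 s) := Fintype.ofFinite _
  letI : Fintype (V1 L s) := Fintype.ofFinite _
  letI : Fintype (V2 L s bb) := Fintype.ofFinite _
  obtain ⟨hs1, hs2⟩ := sides_spherical L C hV hT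
  have hcard : Fintype.card (B1 s) + Fintype.card (B2 s) = Fintype.card B + 1 := card_blacks
  -- the second side has at least two black vertices
  have h2 : 2 ≤ Fintype.card (B2 s) := by
    by_contra hlt
    have hsub : Subsingleton (B2 s) := by
      rw [← Fintype.card_le_one_iff_subsingleton]; omega
    have hsubW : Subsingleton (W2 s) := ((X2 C).e 0).symm.injective.subsingleton
    obtain ⟨x, y, hxy, hx, hy⟩ := hf
    rcases x with x | x
    · exact absurd (hsub.elim (some ⟨x, hx⟩) none) (by simp)
    · rcases y with y | y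
      · exact absurd (hsub.elim (some ⟨y, hy⟩) none) (by simp)
      · have := congrArg Subtype.val (hsubW.elim ⟨x, hx⟩ ⟨y, hy⟩)
        exact hxy (congrArg Sum.inr this)
  have h1 : 2 ≤ Fintype.card (B1 s) := by
    by_contra hlt
    have hsub : Subsingleton (B1 s) := by
      rw [← Fintype.card_le_one_iff_subsingleton]; omega
    have hsubW : Subsingleton (W1 s) := ((X1 C).e 0).symm.injective.subsingleton
    obtain ⟨x, y, hxy, hx, hy⟩ := ht
    rcases x with x | x
    · rcases y with y | y
      · have := congrArg Subtype.val (hsub.elim ⟨x, hx⟩ ⟨y, hy⟩)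
        exact hxy (congrArg Sum.inl this)
      · exact absurd (hsubW.elim (some ⟨y, hy⟩) none) (by simp)
    · exact absurd (hsubW.elim (some ⟨x, hx⟩) none) (by simp)
  have ih1 := ih _ _ _ (X1 C) (L1 L C) (by omega) hs1 (hT.side1 C)
  have ih2 := ih _ _ _ (X2 C) (L2 L C) (by omega) hs2 (hT.side2 C)
  rcases Bool.eq_false_or_eq_true (s (Sum.inl b)) with hb | hb
  · obtain ⟨m1, hm1, hbij1, hc1⟩ := ih1 i ⟨b, hb⟩
    obtain ⟨b1, hb1⟩ := hbij1.surjective none
    set j := m1 b1 with hj
    have hb1' : b1 = ⟨bb j, C.hb j⟩ := by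
      apply ((X1 C).e j).injective
      have h3 : (X1 C).e j ⟨bb j, C.hb j⟩ = none := by rw [X1_e]; exact f1_none (C.hw j)
      rw [h3]
      exact hb1
    obtain ⟨m2, hm2, hbij2, hc2⟩ := ih2 j none
    obtain ⟨m, e1, _, hbij, hc⟩ := glue C (j := j) (by rw [← hb1']) hm2 hbij1 hbij2 hc1 hc2
    exact ⟨m, (e1 b hb).trans hm1, hbij, hc⟩
  · obtain ⟨m2, hm2, hbij2, hc2⟩ := ih2 i (some ⟨b, hb⟩)
    obtain ⟨m1, hm1, hbij1, hc1⟩ := ih1 (m2 none) ⟨bb (m2 none), C.hb _⟩
    obtain ⟨m, _, e2, hbij, hc⟩ := glue C (j := m2 none) hm1 rfl hbij1 hbij2 hc1 hc2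
    exact ⟨m, (e2 b hb).trans hm2, hbij, hc⟩

/-- **Row L7**: if all spherical 3-edge-connected webs without nontrivial 3-edge-cuts have, for
every edge, a Hamiltonian cycle which avoids it, then so do all spherical 3-edge-connected webs. -/
theorem ham_of_prime
    (hprime : ∀ (B W V : Type) [Fintype B] [Fintype W] [Fintype V] (X : Web B W) (_ : Lab X V),
      2 ≤ Fintype.card B → Fintype.card V = Fintype.card B + 2 → TE X → Prime X →
      ∀ i b, HamAvoid X i b) (n : ℕ) :
    ∀ (B W V : Type) [Fintype B] [Fintype W] [Fintype V] (X : Web B W) (_ : Lab X V),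
      Fintype.card B = n → Fintype.card V = Fintype.card B + 2 → TE X → ∀ i b, HamAvoid X i b := by
  induction n using Nat.strong_induction_on with
  | _ n ih =>
    intro B W V _ _ _ X L hn hV hT i b
    by_cases h1 : Fintype.card B ≤ 1
    · exact hamAvoid_one X h1 i b
    by_cases hP : Prime X
    · exact hprime B W V X L (by omega) hV hT hP i b
    unfold Prime at hP
    push_neg at hP
    obtain ⟨s, ht, hf, hc⟩ := hP
    have h3 : cutN X s = 3 := by
      have := hT s (by obtain ⟨x, _, _, hx, _⟩ := ht; exact ⟨x, hx⟩)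
        (by obtain ⟨x, _, _, hx, _⟩ := hf; exact ⟨x, hx⟩)
      omega
    have ih' : ∀ (B' W' V' : Type) [Fintype B'] [Fintype W'] [Fintype V'] (X' : Web B' W')
        (_ : Lab X' V'), Fintype.card B' < Fintype.card B →
        Fintype.card V' = Fintype.card B' + 2 → TE X' → ∀ i b, HamAvoid X' i b := by
      intro B' W' V' _ _ _ X' L' hlt hV' hT'
      exact ih (Fintype.card B') (by omega) B' W' V' X' L' rfl hV' hT'
    rcases cut_dichotomy X s h3 with ⟨bb, C⟩ | ⟨bb, C⟩
    · exact step_of_cut L C hV hT ht hf ih' i b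
    · refine step_of_cut L C hV hT ?_ ?_ ih' i b
      · obtain ⟨x, y, hxy, hx, hy⟩ := hf
        exact ⟨x, y, hxy, by rw [hx]; rfl, by rw [hy]; rfl⟩
      · obtain ⟨x, y, hxy, hx, hy⟩ := ht
        exact ⟨x, y, hxy, by rw [hx]; rfl, by rw [hy]; rfl⟩

end Vale.Agent.P039.H481
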