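import Vale.Agent.P039.H481.Cut
import Vale.Agent.P039.Bz.Stmt

/-! Row L7 in the frozen form `Bz.GlueStmt`. -/

namespace Vale.Agent.P039.H481

open Vale.Agent.P039.Sk Vale.Agent.P039.Bn

variable {B W V : Type}

/-- the web of a `PMap` -/
def toWeb (M : PMap B W V) : Web B W := ⟨M.e⟩

/-- the labelling of a `PMap` -/
def toLab (M : PMap B W V) : Lab (toWeb M) V := ⟨M.c, M.step, M.exact, M.cls, M.surj⟩

/-- the `PMap` of a labelled web -/
def toPMap {X : Web B W} (L : Lab X V) : PMap B W V := ⟨X.e, L.c, L.step, L.exact, L.cls, L.surj⟩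

theorem cutc_eq [Fintype B] (M : PMap B W V) (s : B ⊕ W → Bool) :
    Bz.cutc M {b | s (Sum.inl b) = true} {w | s (Sum.inr w) = true} = cutN (toWeb M) s := by
  classical
  unfold Bz.cutc cutN
  congr 1
  ext p
  simp only [Finset.mem_filter, Finset.mem_univ, true_and, Set.mem_setOf_eq]
  show ¬ (s (Sum.inl p.2) = true ↔ s (Sum.inr (M.e p.1 p.2)) = true) ↔
    s (Sum.inl p.2) ≠ s (Sum.inr (M.e p.1 p.2))
  rcases Bool.eq_false_or_eq_true (s (Sum.inl p.2)) with h | h <;>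
    rcases Bool.eq_false_or_eq_true (s (Sum.inr (M.e p.1 p.2))) with h' | h' <;> simp [h, h']

theorem te_of_c3 [Fintype B] {M : PMap B W V} (h : Bz.C3 M) : TE (toWeb M) := by
  intro s ht hf
  rw [← cutc_eq M s]
  apply h
  · obtain ⟨x | x, hx⟩ := ht
    · exact Or.inl ⟨x, hx⟩
    · exact Or.inr ⟨x, hx⟩
  · obtain ⟨x | x, hx⟩ := hf
    · exact Or.inl ⟨x, by simp [hx]⟩
    · exact Or.inr ⟨x, by simp [hx]⟩

open Classical in
theorem cutc_eq' [Fintype B] {X : Web B W} (L : Lab X V) (S : Set B) (T : Set W) :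
    Bz.cutc (toPMap L) S T =
      cutN X (Sum.elim (fun b => decide (b ∈ S)) (fun w => decide (w ∈ T))) := by
  have h := cutc_eq (toPMap L) (Sum.elim (fun b => decide (b ∈ S)) (fun w => decide (w ∈ T)))
  refine Eq.trans ?_ h
  congr 1
  · ext b; simp
  · ext w; simp

theorem c3_of_te [Fintype B] {X : Web B W} (L : Lab X V) (h : TE X) : Bz.C3 (toPMap L) := by
  classical
  intro S T h1 h2
  rw [cutc_eq']
  apply h
  · rcases h1 with ⟨x, hx⟩ | ⟨x, hx⟩
    · exact ⟨Sum.inl x, by simp [hx]⟩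
    · exact ⟨Sum.inr x, by simp [hx]⟩
  · rcases h2 with ⟨x, hx⟩ | ⟨x, hx⟩
    · exact ⟨Sum.inl x, by simpa using hx⟩
    · exact ⟨Sum.inr x, by simpa using hx⟩

theorem two_of_ncard [Finite B] [Finite W] (S : Set B) (T : Set W)
    (h : ¬ S.ncard + T.ncard ≤ 1) :
    ∃ x y : B ⊕ W, x ≠ y ∧ Sum.elim (fun b => b ∈ S) (fun w => w ∈ T) x ∧
      Sum.elim (fun b => b ∈ S) (fun w => w ∈ T) y := by
  by_cases h1 : 1 < S.ncard
  · obtain ⟨a, b, ha, hb, hab⟩ := (Set.one_lt_ncard_iff (Set.toFinite S)).1 h1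
    exact ⟨Sum.inl a, Sum.inl b, fun h => hab (Sum.inl_injective h), ha, hb⟩
  by_cases h2 : 1 < T.ncard
  · obtain ⟨a, b, ha, hb, hab⟩ := (Set.one_lt_ncard_iff (Set.toFinite T)).1 h2
    exact ⟨Sum.inr a, Sum.inr b, fun h => hab (Sum.inr_injective h), ha, hb⟩
  have h3 : S.ncard ≠ 0 := by omega
  have h4 : T.ncard ≠ 0 := by omega
  obtain ⟨a, ha⟩ := Set.nonempty_of_ncard_ne_zero h3
  obtain ⟨b, hb⟩ := Set.nonempty_of_ncard_ne_zero h4
  exact ⟨Sum.inl a, Sum.inr b, by simp, ha, hb⟩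

theorem c4_of_prime [Fintype B] [Fintype W] {X : Web B W} (L : Lab X V) (h : Prime X) :
    Bz.C4 (toPMap L) := by
  classical
  intro S T hc
  by_contra hn
  push_neg at hn
  obtain ⟨h1, h2⟩ := hn
  obtain ⟨x, y, hxy, hx, hy⟩ := two_of_ncard S T (by omega)
  obtain ⟨x', y', hxy', hx', hy'⟩ := two_of_ncard Sᶜ Tᶜ (by omega)
  have h3 := h (Sum.elim (fun b => decide (b ∈ S)) (fun w => decide (w ∈ T)))
    ⟨x, y, hxy, by rcases x with x | x <;> simpa using hx, by rcases y with y | y <;> simpa using hy⟩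
    ⟨x', y', hxy', by rcases x' with x | x <;> simpa using hx',
      by rcases y' with y | y <;> simpa using hy'⟩
  rw [← cutc_eq' L] at h3
  omega

theorem share {M : PMap B W V} {i i' : Fin 3} {b b' : B} (h : M.e i b = M.e i' b') :
    ∃ j, M.c j b = M.c j b' := by
  obtain ⟨j, hj1, hj2⟩ := fthird i i'
  refine ⟨j, ?_⟩
  rw [← M.cw_e j i hj1.symm b, ← M.cw_e j i' hj2.symm b', h]

theorem sph_of [Fintype B] [Fintype V] {X : Web B W} (L : Lab X V)
    (hV : Fintype.card V = Fintype.card B + 2) (h : TE X) : (toPMap L).Sph := by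
  refine ⟨?_, hV⟩
  set M := toPMap L with hM
  set r : B → B → Prop := fun x y => ∃ j, M.c j x = M.c j y with hr
  have hr1 : ∀ {i i' : Fin 3} {b b' : B}, M.e i b = M.e i' b' → Relation.EqvGen r b b' :=
    fun h => Relation.EqvGen.rel _ _ (share h)
  have key : ∀ w w', Relation.EqvGen
      (fun w w' => ∃ b i i', (fun _ : B => true) b = true ∧ X.e i b = w ∧ X.e i' b = w') w w' →
      Relation.EqvGen r ((X.e 0).symm w) ((X.e 0).symm w') := by
    intro w w' hw
    induction hw with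
    | rel x y hxy =>
      obtain ⟨b, i, i', _, h1, h2⟩ := hxy
      have h3 : Relation.EqvGen r b ((X.e 0).symm x) := hr1 (i := i) (i' := 0) (by
        show X.e i b = X.e 0 ((X.e 0).symm x)
        rw [Equiv.apply_symm_apply]; exact h1)
      have h4 : Relation.EqvGen r b ((X.e 0).symm y) := hr1 (i := i') (i' := 0) (by
        show X.e i' b = X.e 0 ((X.e 0).symm y)
        rw [Equiv.apply_symm_apply]; exact h2)
      exact h3.symm.trans _ _ _ h4
    | refl x => exact Relation.EqvGen.refl _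
    | symm x y _ ih => exact ih.symm
    | trans x y z _ _ ih1 ih2 => exact ih1.trans _ _ _ ih2
  intro b b'
  have := key _ _ (h.wconn (X.e 0 b) (X.e 0 b'))
  rwa [Equiv.symm_apply_apply, Equiv.symm_apply_apply] at this

theorem hamAvoid_of [Fintype B] {X : Web B W} (L : Lab X V) {m : B → Fin 3} {i : Fin 3} {b : B}
    (h : Bz.HamM (toPMap L) m) (hm : m b = i) : HamAvoid X i b := by
  classical
  refine ⟨m, hm, h.1, ?_⟩
  apply eqvGen_of_bool
  intro φ hφ
  have hφ' : ∀ b i, i ≠ m b → φ (Sum.inl b) = φ (Sum.inr (X.e i b)) := fun b i hi =>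
    hφ _ _ ⟨b, i, hi, rfl, rfl⟩
  set p := φ (Sum.inl b) with hp
  have h1 : ∀ b', φ (Sum.inl b') = p := by
    intro b'
    exact h.2 {b | φ (Sum.inl b) = p} {w | φ (Sum.inr w) = p} (by
      intro b j hj
      show φ (Sum.inl b) = p ↔ φ (Sum.inr (X.e j b)) = p
      rw [hφ' b j hj]) ⟨b, rfl⟩ b'
  have h2 : ∀ w, φ (Sum.inr w) = p := by
    intro w
    obtain ⟨i, hi⟩ : ∃ i : Fin 3, i ≠ m ((X.e i).symm w) := by
      by_contra hn
      push_neg at hn
      have e0 : X.e (m ((X.e 0).symm w)) ((X.e 0).symm w) = w := by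
        rw [← hn 0, Equiv.apply_symm_apply]
      have e1 : X.e (m ((X.e 1).symm w)) ((X.e 1).symm w) = w := by
        rw [← hn 1, Equiv.apply_symm_apply]
      have e2 : (X.e 0).symm w = (X.e 1).symm w := h.1.injective (e0.trans e1.symm)
      have e3 := hn 0
      rw [e2, ← hn 1] at e3
      exact absurd e3 (by decide)
    have := hφ' _ _ hi
    rw [Equiv.apply_symm_apply] at this
    rw [← this]
    exact h1 _
  have h3 : ∀ x, φ x = p := by
    rintro (x | x)
    · exact h1 x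
    · exact h2 x
  intro x y
  rw [h3 x, h3 y]

theorem ham_of_hamAvoid (M : PMap B W V) {i : Fin 3} {b : B}
    (h : HamAvoid (toWeb M) i b) : ∃ m, Bz.HamM M m ∧ m b = i := by
  classical
  obtain ⟨m, hm, hbij, hc⟩ := h
  refine ⟨m, ⟨hbij, ?_⟩, hm⟩
  intro S T hST ⟨b0, hb0⟩ b'
  have h1 := bool_of_eqvGen (r := fun x y : B ⊕ W => ∃ b j, j ≠ m b ∧ x = Sum.inl b ∧
      y = Sum.inr ((toWeb M).e j b))
    (Sum.elim (fun b => decide (b ∈ S)) (fun w => decide (w ∈ T))) (by
      rintro _ _ ⟨b, j, hj, rfl, rfl⟩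
      have := hST b j hj
      show decide (b ∈ S) = decide (M.e j b ∈ T)
      simp only [this]) (hc (Sum.inl b0) (Sum.inl b'))
  have h2 : decide (b0 ∈ S) = decide (b' ∈ S) := h1
  rw [decide_eq_true hb0] at h2
  exact of_decide_eq_true h2.symm

/-- **Row L7**. -/
theorem glueStmt : Bz.GlueStmt := by
  intro h B W V _ _ _ M hM h3 b i
  apply ham_of_hamAvoid
  refine ham_of_prime ?_ (Fintype.card B) B W V (toWeb M) (toLab M) rfl hM.card (te_of_c3 h3) i b
  intro B W V _ _ _ X L _ hV hT hP i b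
  obtain ⟨m, hm, hmi⟩ := h B W V (toPMap L) (sph_of L hV hT) (c3_of_te L hT) (c4_of_prime L hP) b i
  exact hamAvoid_of L hm hmi

end Vale.Agent.P039.H481
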